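import Vale.Agent.P281Z.All

/-!
# P281: Campana's orbifold Iitaka conjecture
-/

open Vale.Agent.P281 Vale.Agent.P281.H713.TZ.S Vale.Agent.P281Z.Top
open Vale.Agent.P281.H511.Surf (IsFibration)

/-- Let `f : X → Y` be a fibration of compact complex manifolds, with `X` connected and in Fujiki's
class, and let `Δ` be a rational SNC boundary on `X`.  For the fibres `F` over the points off countably
many proper analytic subsets: `κ(F, K_F + Δ|F) + κ(f | Δ) ≤ κ(X, K_X + Δ)`; and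
`κ(F, K_F + Δ|F) + κ(Y, K_Y + Γ) ≤ κ(X, K_X + Δ)` for every rational SNC boundary `Γ` on `Y` whose
support has its preimage in the components of `Δ` with the coefficient one. -/
theorem Vale.Agent.Results.P281.AOrbifoldIitaka.result (n p : ℕ) (X Y : Type) [tX : TopologicalSpace X]
    [cX : ChartedSpace (Cm n) X] [tY : TopologicalSpace Y] [cY : ChartedSpace (Cm p) Y] (f : X → Y)
    (Δ : Set X → ℝ) (hf : IsFibration (Cm n) (Cm p) f Δ) (hX : Fujiki n X) :
    ∃ H : ℕ → Set Y, (∀ k, IsProperAn p (H k)) ∧ ∀ y, (∀ k, y ∉ H k) →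
      (∃ (F : Type) (_ : TopologicalSpace F) (_ : ChartedSpace (Cm (n - p)) F) (i : F → X),
        IsFib n (n - p) f y i) ∧
      ∀ (F : Type) [TopologicalSpace F] [ChartedSpace (Cm (n - p)) F] (i : F → X),
        IsFib n (n - p) f y i →
          kodR (Cm n) (Cm (n - p)) i Δ + kap (Cm n) (Cm p) ⟨X, Y, tX, tY, cX, cY, f, Δ⟩ ≤
            kodX (Cm n) Δ ∧
          ∀ Γ : Set Y → ℝ, J.IsSNC (Cm p) Γ → (∀ x G, Γ G ≠ 0 → f x ∈ G → ∃ D, Δ D = 1 ∧ x ∈ D) →
            kodR (Cm n) (Cm (n - p)) i Δ + kodX (Cm p) Γ ≤ kodX (Cm n) Δ :=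
  Vale.Agent.P281Z.All.final n p X Y f Δ hf hX
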